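import Vale.Agent.P133.H216.Final

namespace Vale.Agent.Results.P133.CriticalAlgebra

universe u

open Vale.Agent.P133.Statement Vale.Agent.P133F Vale.Agent.P133.H832 Vale.Agent.P133.H681
  Vale.Agent.P133.H216

/-- Question (b).
(1) All weakly purely infinite C*-algebras are purely infinite if and only if there is no critical
C*-algebra: nonzero, unital, weakly purely infinite, finite (every isometry is unitary), while
every proper quotient contains two isometries with orthogonal ranges, the intersection of the
maximal closed ideals is zero, all multiples of the unit are below `1 ⊕ x` for every positive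
`x ≠ 0`, there are two orthogonal full positive elements, `D / (I + L)` is not purely infinite
for nonzero closed ideals `I`, `L` with `I ∩ L = 0`, and `D / E` is not purely infinite for some
essential closed ideal `E`.
(2) Let `A` be unital and weakly purely infinite and let `B` be a quotient of `A` by a closed ideal
contained in every maximal closed ideal. If `B` contains two isometries with orthogonal ranges,
so does `A`.
(3) Let `A` be weakly purely infinite, `a ≥ 0`, and let `B` be a quotient of `A` by a closed ideal
`J` which is superfluous at `a`: if `(a - δ)₊` is in the closed ideal generated by `I` and `J`,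
then it is in `I`. If all multiples of the image of `a` are below this image, all multiples of
`a` are below `a`. -/
theorem result :
    ((∀ (A : Type u) [NonUnitalCStarAlgebra A] [PartialOrder A] [StarOrderedRing A],
      WeaklyPurelyInfinite A → PurelyInfinite A) ↔
      ¬ ∃ (D : Type u) (_ : CStarAlgebra D) (_ : PartialOrder D) (_ : StarOrderedRing D),
        IsCritical D) ∧
    (∀ (A : Type u) [CStarAlgebra A] [PartialOrder A] [StarOrderedRing A] (B : Type u)
      [CStarAlgebra B] (φ : A →⋆ₐ[ℂ] B), WeaklyPurelyInfinite A → Function.Surjective φ →
        (∀ x, φ x = 0 → ∀ M : Submodule ℂ A, IsMaxC M → x ∈ M) →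
          (TwoIsometries A ↔ TwoIsometries B)) ∧
    ∀ (A : Type u) [NonUnitalCStarAlgebra A] [PartialOrder A] [StarOrderedRing A] (B : Type u)
      [NonUnitalCStarAlgebra B] [PartialOrder B] [StarOrderedRing B] (φ : A →⋆ₙₐ[ℂ] B) (a : A),
      WeaklyPurelyInfinite A → 0 ≤ a → Function.Surjective φ → Superfluous φ a →
        (AllBelow a a ↔ AllBelow (φ a) (φ a)) :=
  ⟨b_iff_no_critical, fun _ _ _ _ _ _ φ hW hφ hr => isometries_iff_rad hW φ hφ hr,
    fun _ _ _ _ _ _ _ _ φ _ hW ha hφ hS => allBelow_iff_superfluous hW ha φ hφ hS⟩

end Vale.Agent.Results.P133.CriticalAlgebra
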