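import Vale.Agent.P133.H512.UnionCrit
import Vale.Agent.P133.H512.CountSmallW
import Vale.Agent.P133.H330.PrimeSp

namespace Vale.Agent.Results.P133.SmallInductiveDimension

universe u

open Vale.Agent.P133.Statement Vale.Agent.P133F Vale.Agent.P133.H832 Vale.Agent.P133.H512
  Vale.Agent.P133.H330 Vale.Agent.P133.H779

/-- Question (b) for C*-algebras whose primitive ideal space is small in the sense of dimension
theory. No separation axioms, separability or countability assumptions are made.
(1) The union criterion: let the space `PrimeSp A` of closed prime ideals of `A` be the union of a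
subspace `S` in the class `CountInd` (closed under countable unions of arbitrary subspaces, and
under the inductive step of the theory of small transfinite inductive dimension) and of countably
many locally closed subsets, the sets of closed prime ideals that contain `J k` and do not contain
`K k`, with `C k` the subquotient `K k / J k` of `A`. Then `A` is purely infinite if and only if it
is weakly purely infinite and all `C k` are purely infinite, and the three notions coincide for `A`
if they coincide for all `C k`.
(2) The three notions coincide for every C*-algebra whose lattice of closed ideals is the lattice of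
open sets of a space in the class `SmallIndW`; this lattice is always the lattice of open sets of
`PrimeSp A`.
(3) `SmallIndW` contains all spaces with a base of compact open sets (topological dimension zero),
and all quasi-sober spaces with the lattice of open sets as in (2) for some `A` that are the union
of countably many subspaces, each of them in `CountInd`, or locally closed and in `SmallIndW`. By
definition it contains all Hausdorff spaces whose compact subsets are weakly infinite-dimensional.
(4) `CountInd` contains all subspaces of its members, all spaces with a base of open sets with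
boundaries in the class, and all subspaces of euclidean spaces. -/
theorem result :
    (∀ (A : Type u) [NonUnitalCStarAlgebra A] [PartialOrder A] [StarOrderedRing A]
      (S : Set (PrimeSp A)) (J K : ℕ → Submodule ℂ A) (C : ℕ → Type u)
      [∀ k, NonUnitalCStarAlgebra (C k)] [∀ k, PartialOrder (C k)] [∀ k, StarOrderedRing (C k)],
      CountInd S → (∀ k, IsSubquot (J k) (K k) (C k)) →
      (∀ P : PrimeSp A, P ∉ S → ∃ k, J k ≤ P.1 ∧ ¬ K k ≤ P.1) →
        (PurelyInfinite A ↔ WeaklyPurelyInfinite A ∧ ∀ k, PurelyInfinite (C k)) ∧
        ((∀ k, Coincide (C k)) → Coincide A)) ∧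
    ((∀ (X : Type u) [TopologicalSpace X] (A : Type u) [NonUnitalCStarAlgebra A] [PartialOrder A]
      [StarOrderedRing A], SmallIndW X → OpenSets X A → Coincide A) ∧
      ∀ (A : Type u) [NonUnitalCStarAlgebra A] [PartialOrder A] [StarOrderedRing A],
        OpenSets (PrimeSp A) A) ∧
    (∀ (X : Type u) [TopologicalSpace X],
      ((∀ (x : X) (V : Set X), IsOpen V → x ∈ V →
        ∃ U : Set X, IsOpen U ∧ IsCompact U ∧ x ∈ U ∧ U ⊆ V) → SmallIndW X) ∧
      ∀ (A : Type u) [NonUnitalCStarAlgebra A] [PartialOrder A] [StarOrderedRing A]
        [QuasiSober X] (S : ℕ → Set X), OpenSets X A → ⋃ k, S k = Set.univ →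
          (∀ k, CountInd (S k) ∨ (IsLocallyClosed (S k) ∧ SmallIndW (S k))) → SmallIndW X) ∧
    ∀ (X : Type u) [TopologicalSpace X],
      (CountInd X → ∀ S : Set X, CountInd S) ∧
      (∀ (n : ℕ) (f : X → (Fin n → ℝ)), Topology.IsInducing f → CountInd X) ∧
      ((∀ (x : X) (V : Set X), IsOpen V → x ∈ V →
        ∃ U : Set X, IsOpen U ∧ x ∈ U ∧ U ⊆ V ∧ CountInd (frontier U)) → CountInd X) :=
  ⟨fun _ _ _ _ _ _ _ _ _ _ _ hS hC h => union_clause hS hC h,
    ⟨fun _ _ _ _ _ _ hX hA => coincide_of_smallIndW hX hA, fun _ _ _ _ => openSets_primeSp⟩,
    fun _ _ => ⟨fun h => smallIndW_of_smallInd (smallInd_of_compactBase h),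
      fun _ _ _ _ _ _ hA hSX hS => smallIndW_of_countUnion
        (fun x U hU hx => core_compact hA x U hU hx) hS hSX⟩,
    fun _ _ => ⟨fun h _ => h.of_inducing _ Topology.IsInducing.subtypeVal,
      fun _ _ hf => countInd_of_euclid hf, countInd_of_base⟩⟩

end Vale.Agent.Results.P133.SmallInductiveDimension
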