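import Vale.Agent.P133.H779.LocalMain

namespace Vale.Agent.Results.P133.SubquotientClass

universe u

open Vale.Agent.P133.Statement Vale.Agent.P133F Vale.Agent.P133.H832 Vale.Agent.P133.H779

/-- Question (b) for a class of C*-algebras closed under conditions on subquotients.
(1) Let the algebras `C t` be the algebras of locally closed subsets `S t` of the primitive ideal
space of `A` such that one of three conditions (`IsBuiltFrom`) holds: in every closed subset every
nonempty relatively open subset contains a nonempty relatively open subset `U` which is
quasi-compact, or contained in some `S t`, or such that all points outside `U` of some closed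
subset containing `U` are in some `S t` (for the closure: the boundary of `U`); or the `S t` are
countably many and meet every nonempty locally closed subset, and `A` is separable or they are
closed; or any two open subsets can be separated along a closed subset contained in some `S t`.
Then `A` is purely infinite if and only if it is weakly purely infinite and all `C t` are purely
infinite, and if the three notions coincide for all `C t`, they coincide for `A`.
(2) The three notions coincide for all members of the smallest class `BuiltL` of C*-algebras that
contains all C*-algebras of finite nuclear dimension and those with a tame lattice of closed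
ideals (for example totally ordered, or topological dimension zero), that contains `A` if (1)
applies with all `C t` in the class, and that is closed under bounded products, `A ↦ C₀(X, A)`,
`X` nonempty locally compact Hausdorff, and algebras of sections of upper semicontinuous fields
over locally compact Hausdorff spaces whose compact subsets have property C.
(3) This class contains `A` if it contains `J` and `A / J` for a closed ideal `J`.
(4) It contains `A` if it contains closed ideals `K t` whose sum is dense in `A`. -/
theorem result :
    (∀ (T : Type u) (C : T → Type u) [∀ t, NonUnitalCStarAlgebra (C t)]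
      [∀ t, PartialOrder (C t)] [∀ t, StarOrderedRing (C t)]
      (A : Type u) [NonUnitalCStarAlgebra A] [PartialOrder A] [StarOrderedRing A],
      IsBuiltFrom C A →
        (PurelyInfinite A ↔ WeaklyPurelyInfinite A ∧ ∀ t, PurelyInfinite (C t)) ∧
        ((∀ t, Coincide (C t)) → Coincide A)) ∧
    (∀ (A : Type u) [NonUnitalCStarAlgebra A] [PartialOrder A] [StarOrderedRing A],
      BuiltL A → Coincide A) ∧
    (∀ (A C D : Type u) [NonUnitalCStarAlgebra A] [PartialOrder A] [StarOrderedRing A]
      [NonUnitalCStarAlgebra C] [PartialOrder C] [StarOrderedRing C]
      [NonUnitalCStarAlgebra D] [PartialOrder D] [StarOrderedRing D] (J : Submodule ℂ A),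
      IsSubquot ⊥ J C → IsSubquot J ⊤ D → BuiltL C → BuiltL D → BuiltL A) ∧
    ∀ (T : Type u) (C : T → Type u) [∀ t, NonUnitalCStarAlgebra (C t)]
      [∀ t, PartialOrder (C t)] [∀ t, StarOrderedRing (C t)]
      (A : Type u) [NonUnitalCStarAlgebra A] [PartialOrder A] [StarOrderedRing A]
      (K : T → Submodule ℂ A), (∀ t, IsSubquot ⊥ (K t) (C t)) → (∀ t, BuiltL (C t)) →
        (⨆ t, K t).topologicalClosure = ⊤ → BuiltL A :=
  ⟨fun _ _ _ _ _ _ _ _ _ h => builtFrom_clause h, fun _ _ _ _ hA => builtL_coincide hA,
    fun _ _ _ _ _ _ _ _ _ _ _ _ _ h1 h2 hC hD => builtL_ext h1 h2 hC hD,
    fun _ _ _ _ _ _ _ _ _ _ h hC hs => builtL_sum h hC hs⟩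

end Vale.Agent.Results.P133.SubquotientClass
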