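import Vale.Agent.P133.W634.H665.Final
import Vale.Agent.P133.W634.PIn
import Vale.Agent.P133.W634.Assembly

namespace Vale.Agent.Results.P133.WeaklyInfiniteDimensional

universe u v

open Vale.Agent.P133.H832 Vale.Agent.P133.H330 Vale.Agent.P133.R2.H778 Vale.Agent.P133.W634

/-- (1) Let `X` be a Hausdorff space all of whose compact subsets are weakly infinite-dimensional
(in the sense of Alexandroff) and `A` a C*-algebra whose primitive ideal space has the same open
sets as `X`. Then the three notions of pure infiniteness coincide for `A`.
(2) They coincide for the algebra of sections vanishing at infinity of every continuous field of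
simple C*-algebras over a locally compact Hausdorff space all of whose compact subsets are weakly
infinite-dimensional.
(3) Spaces with property C are weakly infinite-dimensional. -/
theorem result :
    (∀ (X : Type u) [TopologicalSpace X] [T2Space X] (A : Type u) [NonUnitalCStarAlgebra A]
      [PartialOrder A] [StarOrderedRing A], (∀ K : Set X, IsCompact K → WeaklyInfDim K) →
        OpenSets X A → Coincide A) ∧
    (∀ (X : Type v) [TopologicalSpace X] [LocallyCompactSpace X] [T2Space X] (B : X → Type u)
      (A : Type u) [∀ t, NonUnitalCStarAlgebra (B t)] [∀ t, PartialOrder (B t)]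
      [∀ t, StarOrderedRing (B t)] [NonUnitalCStarAlgebra A] [PartialOrder A]
      [StarOrderedRing A], (∀ K : Set X, IsCompact K → WeaklyInfDim K) → IsContField B A →
        (∀ t, IsSimpleC (B t)) → Coincide A) ∧
    ∀ (X : Type v) [TopologicalSpace X], PropertyC X → WeaklyInfDim X :=
  ⟨fun _ _ _ _ _ _ _ hX h => coincide_openSets pStmt aStmt hX h,
    fun _ _ _ _ _ _ _ _ _ _ _ _ hX hF hs => coincide_contField pStmt aStmt hX hF hs,
    fun _ _ h => weaklyInfDim_of_propertyC h⟩

end Vale.Agent.Results.P133.WeaklyInfiniteDimensional
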